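import Vale.Agent.P204.Main

/-! On the four-torus, an almost complex structure invariant under a three-torus of translations
which is tamed by some symplectic form is compatible with some symplectic form. -/

namespace Vale.Agent.Results.P204.TorusInvariant

open Vale.Agent.P204

theorem result (J : V → M4) (hJ : AlmostComplex J)
    (hinv : ∀ x y : V, x 0 = y 0 → J x = J y)
    (h : ∃ om : V → M4, ClosedTwoForm om ∧ Tames om J) :
    ∃ om : V → M4, ClosedTwoForm om ∧ Compatible om J := by
  obtain ⟨om, h1, h2⟩ := h
  exact exists_compatible hJ hinv h1 h2

end Vale.Agent.Results.P204.TorusInvariant
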